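import Vale.Agent.P033.Local

open IsLocalRing

namespace Vale.Agent.P372

/-- One elimination step modulo `p`. -/
def el (p a : ℤ) (w x : List ℤ) : List ℤ :=
  List.zipWith (fun s t => (a * s - x.headD 0 * t) % p) x.tail w

/-- Checks that any `n` vectors of the list are independent modulo `p`. -/
def check (p : ℤ) : ℕ → ℕ → List (List ℤ) → Bool
  | 0, _, _ => false
  | _ + 1, 0, _ => true
  | _ + 1, _ + 1, [] => true
  | f + 1, n + 1, v :: rest => decide (rest.length < n) || (v.headD 0 % p != 0 &&
      check p f n (rest.map (el p (v.headD 0) v.tail)) && check p f (n + 1) rest)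

/-- Pairing of a coefficient sequence with a list. -/
def dot {R : Type} [CommRing R] (n : ℕ) (c : ℕ → R) (x : List R) : R :=
  ∑ j ∈ Finset.range n, c j * x.getD j 0

theorem dot_cons {R : Type} [CommRing R] (n : ℕ) (c : ℕ → R) (a : R) (x : List R) :
    dot (n + 1) c (a :: x) = dot n (fun j => c (j + 1)) x + c 0 * a := by
  simp [dot, Finset.sum_range_succ']

theorem map_dot {R S : Type} [CommRing R] [CommRing S] (f : R →+* S) (n : ℕ) (c : ℕ → R)
    (x : List R) : f (dot n c x) = dot n (fun j => f (c j)) (x.map f) := by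
  simp only [dot, map_sum, map_mul]
  refine Finset.sum_congr rfl fun j _ => ?_
  rw [← List.getD_map x 0 f, map_zero]

variable {k : Type} [Field k] {p : ℕ} [CharP k p]

theorem cast_mod (z : ℤ) : ((z % p : ℤ) : k) = z := by
  rw [Int.emod_def]
  simp

theorem dot_el (n : ℕ) (c : ℕ → k) (a b : ℤ) {w x : List ℤ} (hw : w.length = n)
    (hx : x.length = n) : dot n c ((el p a w (b :: x)).map Int.cast) =
      a * dot n c (x.map Int.cast) - b * dot n c (w.map Int.cast) := by
  simp only [dot, Finset.mul_sum, ← Finset.sum_sub_distrib]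
  refine Finset.sum_congr rfl fun j hj => ?_
  have hj := Finset.mem_range.1 hj
  rw [List.getD_eq_getElem _ _ (by simp [el, hw, hx, hj]),
    List.getD_eq_getElem _ _ (by simp [hx, hj]), List.getD_eq_getElem _ _ (by simp [hw, hj])]
  simp only [el, List.getElem_map, List.getElem_zipWith, List.headD_cons, List.tail_cons,
    cast_mod]
  push_cast
  ring

theorem sound : ∀ (f n : ℕ) (L : List (List ℤ)), check p f n L = true →
    (∀ x ∈ L, x.length = n) → ∀ S : List (List ℤ), S.Sublist L → n ≤ S.length → ∀ c : ℕ → k,
    (∀ x ∈ S, dot n c (x.map Int.cast) = 0) → ∀ j < n, c j = 0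
  | 0, _, _, h => by simp [check] at h
  | _ + 1, 0, _, _ => by simp
  | _ + 1, _ + 1, [], _ => by
    intro _ S hS hn
    rw [List.sublist_nil.1 hS] at hn
    simp at hn
  | f + 1, n + 1, v :: rest, h => by
    intro hL S hS hn c hc
    have hlen := hS.length_le
    obtain ⟨a, w, rfl⟩ := List.exists_cons_of_length_eq_add_one (hL v List.mem_cons_self)
    rw [check, Bool.or_eq_true, decide_eq_true_iff] at h
    have h := h.resolve_left (by rw [List.length_cons] at hlen; omega)
    simp only [Bool.and_eq_true, bne_iff_ne, List.headD_cons, List.tail_cons] at h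
    obtain ⟨⟨h1, h2⟩, h3⟩ := h
    have hw : w.length = n := by simpa using hL _ List.mem_cons_self
    have hr : ∀ x ∈ rest, x.length = n + 1 := fun x hx => hL x (List.mem_cons_of_mem _ hx)
    rcases List.sublist_cons_iff.1 hS with hS' | ⟨S', rfl, hS'⟩
    · exact sound f _ _ h3 hr S hS' hn c hc
    · have ha : (a : k) ≠ 0 := fun h => h1
        (Int.emod_eq_zero_of_dvd ((CharP.intCast_eq_zero_iff k p a).1 h))
      have h0 := hc _ List.mem_cons_self
      rw [List.map_cons, dot_cons] at h0
      have key := sound f n _ h2 (by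
        simp only [List.forall_mem_map]
        intro x hx
        simp [el, hr x hx, hw]) (S'.map (el p a w)) (hS'.map (el p a w)) (by simpa using hn)
        (fun j => c (j + 1)) (by
        simp only [List.forall_mem_map]
        intro x hx
        have h4 := hc x (List.mem_cons_of_mem _ hx)
        have h5 := hr x (hS'.subset hx)
        obtain ⟨b, x, rfl⟩ := List.exists_cons_of_length_eq_add_one h5
        rw [List.map_cons, dot_cons] at h4
        rw [dot_el n _ a b hw (by simpa using h5)]
        linear_combination a * h4 - b * h0)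
      intro j hj
      rcases j with _ | j
      · rw [dot, Finset.sum_eq_zero fun j hj => by rw [key j (Finset.mem_range.1 hj), zero_mul],
          zero_add] at h0
        exact (mul_eq_zero.1 h0).resolve_right ha
      · exact key j (by omega)

theorem lift_indep {I : Type} (V : ValuationSubring ℂ) [CharP (ResidueField V) p] {f n : ℕ}
    (T : List I) (P : I → List ℤ) (h : check p f n (T.map P) = true) (hP : ∀ i, (P i).length = n)
    (m : I → List V) (hm : ∀ i, (m i).map (residue V) = (P i).map Int.cast) {S : List I}
    (hS : S.Sublist T) (hn : n ≤ S.length) (c : ℕ → ℂ)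
    (hc : ∀ i ∈ S, dot n c ((m i).map V.subtype) = 0) : ∀ j < n, c j = 0 := by
  intro j hj
  obtain ⟨j0, h0, hmax⟩ := Finset.exists_max_image (Finset.range n) (fun j => V.valuation (c j))
    ⟨j, Finset.mem_range.2 hj⟩
  by_contra hne
  have hz : c j0 ≠ 0 := fun h => hne (by simpa [h] using hmax j (Finset.mem_range.2 hj))
  have hV : ∀ j < n, c j / c j0 ∈ V := fun j hj => by
    rw [← V.valuation_le_one_iff, map_div₀]
    exact div_le_one_of_le₀ (hmax j (Finset.mem_range.2 hj)) zero_le
  let d : ℕ → V := fun j => if h : j < n then ⟨_, hV j h⟩ else 0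
  have := sound f n _ h (by simp [hP]) _ (hS.map P) (by simpa using hn)
    (fun j => residue V (d j)) (by
      simp only [List.forall_mem_map]
      intro i hi
      rw [← hm, ← map_dot]
      have : dot n d (m i) = 0 := by
        apply V.subtype_injective
        rw [map_dot, map_zero, ← zero_div (c j0), ← hc i hi, dot, dot, Finset.sum_div]
        refine Finset.sum_congr rfl fun j hj => ?_
        simp only [d, dif_pos (Finset.mem_range.1 hj), ValuationSubring.subtype_apply]
        ring
      rw [this, map_zero]) j0 (Finset.mem_range.1 h0)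
  have e : d j0 = 1 := by
    ext
    simp [d, Finset.mem_range.1 h0, hz]
  simp [e] at this

/-- Evaluation of an integer polynomial given by its coefficients. -/
def ev {R : Type} [CommRing R] (l : List ℤ) (x : R) : R := 
  l.foldr (fun (c : ℤ) (s : R) => (c : R) + x * s) 0

theorem map_ev {R S : Type} [CommRing R] [CommRing S] (f : R →+* S) (l : List ℤ) (x : R) :
    f (ev l x) = ev l (f x) := by
  induction l with
  | nil => simp [ev]
  | cons a l ih =>
    simp only [ev, List.foldr_cons, map_add, map_mul, map_intCast] at ih ⊢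
    rw [ih]

open Polynomial in
theorem lift_root (V : ValuationSubring ℂ) (f : ℂ[X]) (a b r : V) (ha : residue V a ≠ 0)
    (hb : residue V b = 0) (h1 : f.leadingCoeff = a) (h2 : f.eval (r : ℂ) = b) :
    ∃ θ : V, f.eval (θ : ℂ) = 0 ∧ residue V θ = residue V r := by
  have va : V.valuation a = 1 := (V.valuation_eq_one_iff a).1 ((residue_ne_zero_iff_isUnit a).1 ha)
  have vb : V.valuation b < 1 := (V.valuation_lt_one_iff b).1 ((residue_eq_zero_iff b).1 hb)
  rw [← h2, (IsAlgClosed.splits f).eval_eq_prod_roots, map_mul, h1, va, one_mul,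
    map_multiset_prod, Multiset.map_map] at vb
  by_contra hc
  refine absurd vb (not_lt.2 (Multiset.one_le_prod_of_one_le fun x hx => ?_))
  obtain ⟨θ, h3, rfl⟩ := Multiset.mem_map.1 hx
  refine not_lt.1 fun h4 => hc ?_
  have h5 : (r : ℂ) - θ ∈ V := (V.valuation_le_one_iff _).1 h4.le
  refine ⟨r - ⟨_, h5⟩, by simpa using (isRoot_of_mem_roots h3).eq_zero, ?_⟩
  rw [map_sub, (residue_eq_zero_iff _).2 ((V.valuation_lt_one_iff ⟨_, h5⟩).2 h4), sub_zero]

end Vale.Agent.P372
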