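import Vale.Agent.P372.Check

open IsLocalRing Matrix

namespace Vale.Agent.P372

/-- Seven integer matrices. -/
def Lz : Fin 7 → Matrix (Fin 3) (Fin 5) ℤ :=
  ![!![-1, -1, 0, -3, -5; 2, 2, 0, 6, 10; -9, -2, 0, -6, -10],
    !![-1, 13, 0, -3, -5; 2, -33, 0, 6, 10; -2, 40, 0, -6, -10],
    !![-1, -1, -7, -3, -5; 2, 2, 7, 6, 10; -2, -2, -14, -6, -10],
    !![-1, -1, 0, 25, -5; 2, 2, 0, -64, 10; -2, -2, 0, 71, -10],
    !![-1, -1, 0, -3, 44; 2, 2, 0, 6, -109; -2, -2, 0, -6, 123],
    !![6, -1, 14, 4, 2; -12, 2, -28, -8, -4; 19, -2, 42, 15, 11],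
    !![-1, -8, -7, -17, -26; 2, 23, 21, 48, 73; -2, -30, -28, -62, -94]]

/-- The Kraus operators. -/
noncomputable def Lc (e : Fin 7) : Matrix (Fin 3) (Fin 5) ℂ := Matrix.of fun a c => (Lz e a c : ℂ)

/-- Some product vector with first factor `v` is orthogonal to all Kraus operators. -/
def Ker (v : Fin 3 → ℂ) : Prop := ∃ u : Fin 5 → ℂ, u ≠ 0 ∧ ∀ e, (v ᵥ* Lc e) ⬝ᵥ u = 0

/-- Products of four of the five linear forms. -/
def uu {R : Type} [CommRing R] (x y z : R) : Fin 5 → R :=
  ![(2 * x - 5 * y + 6 * z) * (-x + y - 2 * z) * (4 * x - 10 * y + 11 * z) * (7 * x - 17 * y + 19 * z),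
    -z * (-x + y - 2 * z) * (4 * x - 10 * y + 11 * z) * (7 * x - 17 * y + 19 * z),
    -z * (2 * x - 5 * y + 6 * z) * (4 * x - 10 * y + 11 * z) * (7 * x - 17 * y + 19 * z),
    -z * (2 * x - 5 * y + 6 * z) * (-x + y - 2 * z) * (7 * x - 17 * y + 19 * z),
    -z * (2 * x - 5 * y + 6 * z) * (-x + y - 2 * z) * (4 * x - 10 * y + 11 * z)]

/-- First quintic. -/
noncomputable def F5 (x y z : ℂ) : ℂ := (-x + 2 * y - 3 * z) *
  (-uu x y z 0 - 2 * uu x y z 2 - uu x y z 3 - uu x y z 4) + z * uu x y z 0

/-- Second quintic. -/
noncomputable def F6 (x y z : ℂ) : ℂ := (x - 3 * y + 4 * z) *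
  (-uu x y z 1 - uu x y z 2 - 2 * uu x y z 3 - 3 * uu x y z 4) + z * uu x y z 0

theorem ker_alg {x y z : ℂ} (h5 : F5 x y z = 0) (h6 : F6 x y z = 0) (h : uu x y z 0 ≠ 0) :
    Ker ![x, y, z] := by
  refine ⟨uu x y z, fun h0 => h (congrFun h0 0), fun e => ?_⟩
  simp only [F5, F6, uu, cons_val] at h5 h6
  fin_cases e <;> simp [Lc, Lz, uu, vecMul, dotProduct, Fin.sum_univ_succ]
  · linear_combination -h5 - h6
  · linear_combination -h5 - h6
  · linear_combination -h5 - h6
  · linear_combination -h5 - h6
  · linear_combination -h5 - h6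
  · linear_combination 6 * h5 - h6
  · linear_combination 6 * h6 - h5

/-- The eliminant without its leading coefficient. -/
def mm : List ℤ :=
  [-90, -37, 2784, -2519, -20652, 37561, 20988, -96647, 83804, -28910]

/-- First coordinate. -/
def g0 : List ℤ :=
  [-13575, -245884, 569965, 3668762, -10058365, -3873188, 32902405, -35671634, 14871710, -2107980]

/-- Second coordinate. -/
def g1 : List ℤ :=
  [-21120, -2657, 449030, -288794, -2662250, 3713861, 2488580, -7100212, 4095700, -715890]

/-- Third coordinate. -/
def g2 : List ℤ :=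
  [-14055, 78525, 220725, -1503615, 958395, 4705995, -8888655, 5707365, -1388730, 80850]

/-- First quotient. -/
def q5 : List ℤ :=
  [617231446807815000, 79147648351698584625, -1353948418875454413975, -2269308216038664790485,
   114804719309908055229840, -293956573078386678170295, -3140019471255657200110125,
   15722366860044900725585085, 26967019589472081621671820, -308114062769357034087233700,
   253523257774738125012391680, 2811876142243502918057911650, -7148369975339779142332451400,
   -8873274195061126015661512470, 58781297727693780103733243130, -44383347321247770067459086930,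
   -195976035702851383491658836300, 455158444984187071955662541385,
   -17665283701690920417727463355, -1218909260225866129681731519825,
   1699831481817854295817353825300, 105082380662378646393549331605,
   -2886127438623350985444905636805, 3494164848100984996876607561505,
   -1132715136260657584328403231720, -1639340346379195278248966757270,
   2430438982819710262784983130850, -1490447111001967646535361676220,
   374905517363017696170301049460, 114233909061549238693428299400,
   -142725464521399876206676937400, 62760279315232281702279118500,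
   -16184347234743415455867888000, 2564459969737481141362470000, -232037666328051951112620000,
   9199014441360109729650000]

/-- Second quotient. -/
def q6 : List ℤ :=
  [334190486909413125, -76588947687250388250, 541364568336547854750, 11244166116258191387400,
   -99996127783085700271125, -377835429160358627278050, 5471279955483840486080325,
   -2413542230825163360668100, -126463385578470304909203000, 334188972118385537538158100,
   1184891359052823229075928625, -6511749702368574551456550600, 887937710398834469743204650,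
   52450685476144848903472788150, -101068951887963547150206988350,
   -130567011338935047831079651200, 723200633194766970644294393025,
   -642820984742275244430152546250, -1570833384049779222115247938200,
   4465249514790138205424021724300, -2782483516015229598166697656725,
   -5850316242602323182108978727950, 14218902809466543327507502160025,
   -11540272567974733046230759276200, -2986796125654404842581457745150,
   18194302185624518109847803311400, -23509686039024777368587401623175,
   18695008618541441069824923228900, -10476556975768443202990428760800,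
   4303317531416234186793086033850, -1304163047989876189734411660000,
   287741505770626637116958791500, -44703364646175528690334350000, 4591908546466736789409465000,
   -275709924979347882432150000, 7132435601244676395750000]

theorem f5_eq (x : ℂ) : F5 (ev g0 x) (ev g1 x) (ev g2 x) = ev q5 x * ev (mm ++ [3430]) x := by
  simp only [F5, uu, cons_val, ev, g0, g1, g2, q5, mm, List.cons_append, List.nil_append,
    List.foldr_cons, List.foldr_nil]
  push_cast
  ring

theorem f6_eq (x : ℂ) : F6 (ev g0 x) (ev g1 x) (ev g2 x) = ev q6 x * ev (mm ++ [3430]) x := by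
  simp only [F6, uu, cons_val, ev, g0, g1, g2, q6, mm, List.cons_append, List.nil_append,
    List.foldr_cons, List.foldr_nil]
  push_cast
  ring

open Polynomial in
theorem lead (l : List ℤ) {a : ℤ} (ha : a ≠ 0) : (ev (l ++ [a]) X : ℂ[X]).leadingCoeff = a := by
  induction l with
  | nil =>
    have e : (ev ([] ++ [a]) X : ℂ[X]) = C (a : ℂ) := by simp [ev]
    rw [e, leadingCoeff_C]
  | cons c l ih =>
    have h0 : (ev (l ++ [a]) X : ℂ[X]) ≠ 0 := fun h => by
      rw [h, leadingCoeff_zero] at ih
      exact ha (by exact_mod_cast ih.symm)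
    have e : (ev (c :: l ++ [a]) X : ℂ[X]) = C (c : ℂ) + X * ev (l ++ [a]) X := by simp [ev]
    rw [e, leadingCoeff_add_of_degree_lt, leadingCoeff_mul, leadingCoeff_X, one_mul, ih]
    refine degree_C_le.trans_lt ?_
    rw [degree_mul, degree_X, degree_eq_natDegree h0]
    exact_mod_cast Nat.add_pos_left one_pos _

/-- Roots modulo the prime, with the coordinates of the points. -/
def alg : List (ℤ × ℤ × ℤ × ℤ) :=
  [(4798754, 4902938, 1214577, 2690120), (4329777, 1620165, 3540043, 2787625),
   (4224326, 2710488, 585802, 1055817), (4187961, 1442373, 3094573, 3163282),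
   (3940751, 1660265, 2158917, 616343), (3939817, 16508, 1370746, 1577037),
   (2776974, 9515, 3092958, 5157808), (2277265, 1047138, 1981238, 3770398),
   (1739598, 3545426, 2105099, 4243804), (846263, 4612121, 987705, 3474202)]

/-- The fifteen points modulo the prime. -/
def pts : List (ℤ × ℤ × ℤ) :=
  [(-3, 1, 2), (-5, -2, 0), (-1, 1, 1), (-2, -1, 0), (-2, -2, -1)] ++ alg.map Prod.snd

/-- Quadratic monomials. -/
def mon2 {R : Type} [CommRing R] (x y z : R) : List R :=
  [x * x, x * y, x * z, y * y, y * z, z * z]

/-- Cubic monomials. -/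
def mon3 {R : Type} [CommRing R] (x y z : R) : List R :=
  [x * x * x, x * x * y, x * x * z, x * y * y, x * y * z, x * z * z, y * y * y, y * y * z,
    y * z * z, z * z * z]

theorem check2 : check (5382101 : ℕ) 40 6 (pts.map fun v => mon2 v.1 v.2.1 v.2.2) = true := by
  decide +kernel

theorem check3 : check (5382101 : ℕ) 40 10 (pts.map fun v => mon3 v.1 v.2.1 v.2.2) = true := by
  decide +kernel

theorem alg_ok : ∀ a ∈ alg, ev (mm ++ [3430]) a.1 % (5382101 : ℕ) = 0 ∧
    ev g0 a.1 % (5382101 : ℕ) = a.2.1 ∧ ev g1 a.1 % (5382101 : ℕ) = a.2.2.1 ∧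
    ev g2 a.1 % (5382101 : ℕ) = a.2.2.2 ∧ ¬((5382101 : ℕ) : ℤ) ∣ uu a.2.1 a.2.2.1 a.2.2.2 0 := by
  decide +kernel

theorem map_uu {R S : Type} [CommRing R] [CommRing S] (f : R →+* S) (x y z : R) :
    f (uu x y z 0) = uu (f x) (f y) (f z) 0 := by
  simp [uu, map_ofNat]

theorem ker_int (x y z : ℤ) (u : Fin 5 → ℤ) (hu : ∃ i, u i ≠ 0)
    (h : ∀ e, ∑ c, (x * Lz e 0 c + y * Lz e 1 c + z * Lz e 2 c) * u c = 0) :
    Ker ![(x : ℂ), y, z] := by
  obtain ⟨i, hi⟩ := hu
  refine ⟨fun c => u c, fun h0 => hi (by simpa using congrFun h0 i), fun e => ?_⟩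
  simp only [Lc, vecMul, dotProduct, Fin.sum_univ_three, cons_val, of_apply]
  exact_mod_cast h e

theorem points (V : ValuationSubring ℂ) [CharP (ResidueField V) 5382101] (a : ℤ × ℤ × ℤ) :
    ∃ x y z : V, residue V x = a.1 ∧ residue V y = a.2.1 ∧ residue V z = a.2.2 ∧
      (a ∈ pts → Ker ![x, y, z]) := by
  by_cases h : a ∈ alg.map Prod.snd
  · obtain ⟨⟨r, b⟩, hb, rfl⟩ := List.mem_map.1 h
    obtain ⟨h1, h2, h3, h4, h5⟩ := alg_ok _ hb
    have c : ∀ l : List ℤ, ev l (r : ResidueField V) = (ev l r % (5382101 : ℕ) : ℤ) := fun l => by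
      rw [cast_mod]
      exact (map_ev (Int.castRingHom (ResidueField V)) l r).symm
    have ee : ∀ x : ℂ, Polynomial.eval x (ev (mm ++ [3430]) Polynomial.X) = ev (mm ++ [3430]) x :=
      fun x => by simpa using map_ev (Polynomial.evalRingHom x) (mm ++ [3430]) Polynomial.X
    obtain ⟨θ, t1, t2⟩ := lift_root V (ev (mm ++ [3430]) Polynomial.X) (3430 : ℤ)
      (ev (mm ++ [3430]) (r : V)) r
      (by rw [map_intCast, Ne, CharP.intCast_eq_zero_iff _ 5382101]; decide)
      (by rw [map_ev, map_intCast, c, h1, Int.cast_zero]) (by rw [lead _ (by decide), SubringClass.coe_intCast])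
      (by rw [ee]; exact (map_ev V.subtype (mm ++ [3430]) r).symm)
    rw [map_intCast] at t2
    rw [ee] at t1
    have e : ∀ l, ((ev l θ : V) : ℂ) = ev l (θ : ℂ) := fun l => map_ev V.subtype l θ
    have r0 : residue V (ev g0 θ) = b.1 := by rw [map_ev, t2, c, h2]
    have r1 : residue V (ev g1 θ) = b.2.1 := by rw [map_ev, t2, c, h3]
    have r2 : residue V (ev g2 θ) = b.2.2 := by rw [map_ev, t2, c, h4]
    refine ⟨_, _, _, r0, r1, r2, fun _ => ker_alg ?_ ?_ fun h0 => h5 ?_⟩
    · rw [e, e, e, f5_eq, t1, mul_zero]
    · rw [e, e, e, f6_eq, t1, mul_zero]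
    · have : uu (ev g0 θ) (ev g1 θ) (ev g2 θ) 0 = 0 :=
        V.subtype_injective ((map_uu V.subtype (ev g0 θ) (ev g1 θ) (ev g2 θ)).trans h0)
      have := congrArg (residue V) this
      rw [map_uu, r0, r1, r2, map_zero] at this
      exact (CharP.intCast_eq_zero_iff (ResidueField V) 5382101 _).1
        ((map_uu (Int.castRingHom (ResidueField V)) b.1 b.2.1 b.2.2).trans this)
  · refine ⟨a.1, a.2.1, a.2.2, by simp, by simp, by simp, fun ha => ?_⟩
    have ha := (List.mem_append.1 ha).resolve_right h
    simp only [List.mem_cons, List.not_mem_nil, or_false] at ha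
    simp only [SubringClass.coe_intCast]
    rcases ha with rfl | rfl | rfl | rfl | rfl
    · exact ker_int _ _ _ ![0, 0, 1, -5, 3] (by decide) (by decide)
    · exact ker_int _ _ _ ![-1, -2, 0, 1, 0] (by decide) (by decide)
    · exact ker_int _ _ _ ![0, 0, 1, 0, 0] (by decide) (by decide)
    · exact ker_int _ _ _ ![1, 0, 0, 0, 0] (by decide) (by decide)
    · exact ker_int _ _ _ ![0, 1, 0, 0, 0] (by decide) (by decide)

end Vale.Agent.P372
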