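import Vale.Agent.P372.Pts
import Vale.Agent.P372.Prot

open IsLocalRing Matrix
open scoped ComplexOrder MatrixOrder Kronecker

namespace Vale.Agent.P372

theorem collect {F : Type} [Fintype F] {n : ℕ} (idx : F → ℕ) (h : ∀ f, idx f < n) (β : F → ℂ)
    (x : List ℂ) : ∑ f, x.getD (idx f) 0 * β f = dot n (fun j => ∑ f with idx f = j, β f) x := by
  rw [dot, ← Finset.sum_fiberwise_of_maps_to (t := Finset.range n) (g := idx)
    fun f _ => Finset.mem_range.2 (h f)]
  refine Finset.sum_congr rfl fun j _ => ?_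
  rw [Finset.sum_mul]
  exact Finset.sum_congr rfl fun f hf => by rw [(Finset.mem_filter.1 hf).2, mul_comm]

/-- Tensor powers of a vector. -/
noncomputable def pw (n : ℕ) (w : Fin 3 → ℂ) (a : Fin (3 ^ n)) : ℂ :=
  ∏ i, w (finFunctionFinEquiv.symm a i)

theorem pw2 (a : Fin (3 ^ 2)) : ∃ j < 6, ∀ x y z : ℂ,
    pw 2 ![x, y, z] a = (mon2 x y z).getD j 0 := by
  simp only [pw, Fin.prod_univ_two]
  generalize finFunctionFinEquiv.symm a 0 = b
  generalize finFunctionFinEquiv.symm a 1 = c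
  refine ⟨![![0, 1, 2], ![1, 3, 4], ![2, 4, 5]] b c, ?_, fun x y z => ?_⟩
  · revert b c
    decide
  · fin_cases b <;> fin_cases c <;> simp [mon2, mul_comm]

theorem pw3 (a : Fin (3 ^ 3)) : ∃ j < 10, ∀ x y z : ℂ,
    pw 3 ![x, y, z] a = (mon3 x y z).getD j 0 := by
  simp only [pw, Fin.prod_univ_three]
  generalize finFunctionFinEquiv.symm a 0 = b
  generalize finFunctionFinEquiv.symm a 1 = c
  generalize finFunctionFinEquiv.symm a 2 = d
  refine ⟨![![![0, 1, 2], ![1, 3, 4], ![2, 4, 5]], ![![1, 3, 4], ![3, 6, 7], ![4, 7, 8]],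
    ![![2, 4, 5], ![4, 7, 8], ![5, 8, 9]]] b c d, ?_, fun x y z => ?_⟩
  · revert b c d
    decide
  · fin_cases b <;> fin_cases c <;> fin_cases d <;> simp [mon3, mul_comm, mul_left_comm]

theorem psd_zero {n : Type} [Fintype n] [DecidableEq n] {α : Matrix n n ℂ} (h : α.PosSemidef)
    {u : n → ℂ} (hu : u ⬝ᵥ α *ᵥ star u = 0) : u ᵥ* α = 0 := by
  have := congrArg star ((h.dotProduct_mulVec_zero_iff (star u)).1 (by rwa [star_star]))
  rwa [star_mulVec, star_star, h.1.eq, star_zero] at this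

/-- The fifth power of a vector, split between the two parties. -/
noncomputable def pw5 (w : Fin 3 → ℂ) (p : Fin (3 ^ 2) × Fin (3 ^ 3)) : ℂ := pw 2 w p.1 * pw 3 w p.2

theorem sep_vanish {ρ : Matrix (Fin (3 ^ 2) × Fin (3 ^ 3)) (Fin (3 ^ 2) × Fin (3 ^ 3)) ℂ}
    (h : Separable ρ) (hK : ∀ v, Ker v → pw5 v ⬝ᵥ ρ *ᵥ star (pw5 v) = 0) (a b c : ℂ) :
    pw5 ![a, b, c] ⬝ᵥ ρ *ᵥ star (pw5 ![a, b, c]) = 0 := by
  classical
  obtain ⟨m, p, α, β, hp, -, hα, hβ, rfl⟩ := h
  have pr : Nat.Prime 5382101 := by norm_num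
  obtain ⟨V, hV⟩ := P033.exists_val ℂ pr
  have : Fact (Nat.Prime 5382101) := ⟨pr⟩
  have : CharP (ResidueField V) 5382101 := (CharP.charP_iff_prime_eq_zero pr).2 (by
    rw [← hV, map_natCast])
  choose x y z hx hy hz hk using points V
  have ex : ∀ w, pw5 w ⬝ᵥ (∑ i, (p i : ℂ) • (α i ⊗ₖ β i)) *ᵥ star (pw5 w) =
      ∑ i, p i * ((pw 2 w ⬝ᵥ α i *ᵥ star (pw 2 w)) * (pw 3 w ⬝ᵥ β i *ᵥ star (pw 3 w))) := fun w => by
    rw [sum_mulVec, dotProduct_sum]
    refine Finset.sum_congr rfl fun i _ => ?_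
    rw [smul_mulVec, dotProduct_smul, smul_eq_mul]
    congr 1
    simp only [dotProduct, mulVec, pw5, Fintype.sum_prod_type, kroneckerMap_apply, Pi.star_apply,
      star_mul']
    rw [Finset.sum_mul_sum]
    refine Finset.sum_congr rfl fun _ _ => Finset.sum_congr rfl fun _ _ => ?_
    rw [mul_mul_mul_comm, Finset.sum_mul_sum]
    congr 1
    exact Finset.sum_congr rfl fun _ _ => Finset.sum_congr rfl fun _ _ => by ring
  have nn : ∀ {n : Type} [Fintype n] {A : Matrix n n ℂ}, A.PosSemidef → ∀ u : n → ℂ,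
      0 ≤ u ⬝ᵥ A *ᵥ star u := fun hA u => by simpa using hA.dotProduct_mulVec_nonneg (star u)
  rw [ex]
  refine Finset.sum_eq_zero fun i _ => mul_eq_zero.2 (or_iff_not_imp_left.2 fun hi => ?_)
  have h1 : ∀ t ∈ pts, ¬pw 2 ![x t, y t, z t] ᵥ* α i = 0 → pw 3 ![x t, y t, z t] ᵥ* β i = 0 := by
    intro t ht h2
    have := hK _ (hk t ht)
    rw [ex, Finset.sum_eq_zero_iff_of_nonneg fun i _ => mul_nonneg (by exact_mod_cast hp i)
      (mul_nonneg (nn (hα i).1 _) (nn (hβ i).1 _))] at this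
    rcases mul_eq_zero.1 ((mul_eq_zero.1 (this i (Finset.mem_univ _))).resolve_left hi) with h | h
    · exact absurd (psd_zero (hα i).1 h) h2
    · exact psd_zero (hβ i).1 h
  have hl := List.length_eq_length_filter_add (l := pts)
    fun t => decide (pw 2 ![x t, y t, z t] ᵥ* α i = 0)
  rw [show pts.length = 15 from rfl] at hl
  rw [dotProduct_mulVec, dotProduct_mulVec, mul_eq_zero]
  by_cases h6 : 6 ≤ (pts.filter fun t => decide (pw 2 ![x t, y t, z t] ᵥ* α i = 0)).length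
  · left
    choose idx i1 i2 using pw2
    have : pw 2 ![a, b, c] ᵥ* α i = 0 := by
      funext r
      have e : ∀ x y z, (pw 2 ![x, y, z] ᵥ* α i) r =
          dot 6 (fun j => ∑ f with idx f = j, α i f r) (mon2 x y z) := fun x y z => by
        simp only [← collect idx i1, ← i2, vecMul, dotProduct]
      have := lift_indep V pts _ check2 (fun _ => rfl) (fun t => mon2 (x t) (y t) (z t))
        (fun t => by simp [mon2, hx, hy, hz]) List.filter_sublist h6
        (fun j => ∑ f with idx f = j, α i f r) fun t ht => by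
          have := congrFun (of_decide_eq_true (List.mem_filter.1 ht).2) r
          rw [e] at this
          exact this
      rw [e]
      exact Finset.sum_eq_zero fun j hj => mul_eq_zero_of_left (this j (Finset.mem_range.1 hj)) _
    rw [this, zero_dotProduct]
  · right
    choose idx i1 i2 using pw3
    have : pw 3 ![a, b, c] ᵥ* β i = 0 := by
      funext r
      have e : ∀ x y z, (pw 3 ![x, y, z] ᵥ* β i) r =
          dot 10 (fun j => ∑ f with idx f = j, β i f r) (mon3 x y z) := fun x y z => by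
        simp only [← collect idx i1, ← i2, vecMul, dotProduct]
      have := lift_indep V pts _ check3 (fun _ => rfl) (fun t => mon3 (x t) (y t) (z t))
        (fun t => by simp [mon3, hx, hy, hz]) (List.filter_sublist
          (p := fun t => !decide (pw 2 ![x t, y t, z t] ᵥ* α i = 0))) (by omega)
        (fun j => ∑ f with idx f = j, β i f r) fun t ht => by
          have := congrFun (h1 t (List.mem_filter.1 ht).1
            (by simpa using (List.mem_filter.1 ht).2)) r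
          rw [e] at this
          exact this
      rw [e]
      exact Finset.sum_eq_zero fun j hj => mul_eq_zero_of_left (this j (Finset.mem_range.1 hj)) _
    rw [this, zero_dotProduct]

theorem det_expand {J C : Type} [Fintype J] [DecidableEq J] [Fintype C] [DecidableEq C]
    (N : J → C → ℂ) (e : J → C) : det (Matrix.of fun j i => N j (e i)) =
      ∑ c : J → C, (∏ j, N j (c j)) * det (Matrix.of fun j i => if c j = e i then 1 else 0) := by
  have h : (Matrix.of fun j i => N j (e i)) =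
      fun j => ∑ c, N j c • fun i => if c = e i then (1 : ℂ) else 0 := by
    ext j i
    simp
  rw [h]
  exact (detRowAlternating.toMultilinearMap.map_sum _).trans
    (Finset.sum_congr rfl fun c _ => detRowAlternating.toMultilinearMap.map_smul_univ _ _)

/-- The antisymmetric vector. -/
noncomputable def eps (x : (Fin 2 → Fin 5) × (Fin 3 → Fin 5)) : ℂ :=
  det (Matrix.of fun j i : Fin 2 ⊕ Fin 3 => if Sum.elim x.1 x.2 j = finSumFinEquiv i then 1 else 0)

/-- The vectors spanning the range of the state. -/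
noncomputable def phi (κ : (Fin 2 → Fin 7) × (Fin 3 → Fin 7)) (p : Fin (3 ^ 2) × Fin (3 ^ 3)) : ℂ :=
  ((tp (Fin 2) Lc κ.1 ⊗ₖ tp (Fin 3) Lc κ.2) *ᵥ eps)
    (finFunctionFinEquiv.symm p.1, finFunctionFinEquiv.symm p.2)

/-- The state before normalisation. -/
noncomputable def rho : Matrix (Fin (3 ^ 2) × Fin (3 ^ 3)) (Fin (3 ^ 2) × Fin (3 ^ 3)) ℂ :=
  ∑ κ, vecMulVec (phi κ) (star (phi κ))

theorem sym_Lc : Sym Lc := fun a b c d => by
  have : ∀ a b c d, ∑ κ, Lz κ a c * Lz κ b d = ∑ κ, Lz κ a d * Lz κ b c := by decide +kernel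
  simp only [Lc, of_apply, star_intCast]
  exact_mod_cast this a b c d

theorem sq_rho : Sq rho := by
  have : Sq (Matrix.of fun p q => ∑ κ : (Fin 2 → Fin 7) × (Fin 3 → Fin 7),
      ((tp (Fin 2) Lc κ.1 ⊗ₖ tp (Fin 3) Lc κ.2) *ᵥ eps) p *
      star (((tp (Fin 2) Lc κ.1 ⊗ₖ tp (Fin 3) Lc κ.2) *ᵥ eps) q)) := by
    refine ⟨Fin 2 → Fin 5, Fin 3 → Fin 5, Fin 2 → Fin 7, Fin 3 → Fin 7, inferInstance,
      inferInstance, inferInstance, inferInstance, tp (Fin 2) Lc, tp (Fin 3) Lc, eps, sym_Lc.tp _,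
      sym_Lc.tp _, ?_, fun _ _ => of_apply _ _ _⟩
    funext x
    refine ((starRingEnd ℂ).map_det _).trans (congrArg det ?_)
    ext j i
    simp [apply_ite]
  convert this.comap (A' := Fin (3 ^ 2)) (B' := Fin (3 ^ 3)) finFunctionFinEquiv.symm
    finFunctionFinEquiv.symm using 1
  ext p q
  simp only [rho, Matrix.sum_apply, vecMulVec_apply, of_apply, phi, Pi.star_apply]

theorem Sq.smul {A B : Type} {ρ : Matrix (A × B) (A × B) ℂ} (h : Sq ρ) {t : ℝ} (ht : 0 ≤ t) :
    Sq ((t : ℂ) • ρ) := by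
  obtain ⟨C, D, K, K', _, _, _, _, L, R, ε, h1, h2, h3, h4⟩ := h
  refine ⟨C, D, K, K', inferInstance, inferInstance, inferInstance, inferInstance, L, R,
    (√t : ℂ) • ε, h1, h2, by simp [h3], fun p q => ?_⟩
  have : (t : ℂ) = (√t : ℂ) * √t := by exact_mod_cast (Real.mul_self_sqrt ht).symm
  simp only [Matrix.smul_apply, h4, mulVec_smul, Pi.smul_apply, smul_eq_mul, Finset.mul_sum,
    star_mul', Complex.star_def, Complex.conj_ofReal]
  refine Finset.sum_congr rfl fun _ _ => ?_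
  rw [mul_mul_mul_comm, ← this]

theorem pw_tp (n : ℕ) (w : Fin 3 → ℂ) (κ : Fin n → Fin 7) (c : Fin n → Fin 5) :
    ∑ a, pw n w a * tp (Fin n) Lc κ (finFunctionFinEquiv.symm a) c = ∏ i, (w ᵥ* Lc (κ i)) (c i) := by
  simp only [pw, tp, of_apply, vecMul, dotProduct, ← Finset.prod_mul_distrib]
  rw [Fintype.prod_sum]
  exact Equiv.sum_comp finFunctionFinEquiv.symm fun a => ∏ i, w (a i) * Lc (κ i) (a i) (c i)

theorem pair (w : Fin 3 → ℂ) (κ : (Fin 2 → Fin 7) × (Fin 3 → Fin 7)) : pw5 w ⬝ᵥ phi κ =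
    det (Matrix.of fun j i : Fin 2 ⊕ Fin 3 => (w ᵥ* Lc (Sum.elim κ.1 κ.2 j)) (finSumFinEquiv i)) := by
  rw [det_expand, ← (Equiv.sumArrowEquivProdArrow _ _ _).symm.sum_comp]
  simp only [dotProduct, phi, mulVec, Finset.mul_sum]
  rw [Finset.sum_comm]
  refine Finset.sum_congr rfl fun x _ => ?_
  have e : ∏ j : Fin 2 ⊕ Fin 3, (w ᵥ* Lc (Sum.elim κ.1 κ.2 j)) (Sum.elim x.1 x.2 j) =
      ∑ p, pw5 w p * (tp (Fin 2) Lc κ.1 ⊗ₖ tp (Fin 3) Lc κ.2)
        (finFunctionFinEquiv.symm p.1, finFunctionFinEquiv.symm p.2) x := by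
    rw [Fintype.prod_sum_type]
    simp only [Sum.elim_inl, Sum.elim_inr, ← pw_tp]
    rw [Finset.sum_mul_sum, Fintype.sum_prod_type]
    exact Finset.sum_congr rfl fun _ _ => Finset.sum_congr rfl fun _ _ => mul_mul_mul_comm _ _ _ _
  simp only [← mul_assoc, ← Finset.sum_mul, ← e]
  rfl

theorem form (W : Fin (3 ^ 2) × Fin (3 ^ 3) → ℂ) :
    W ⬝ᵥ rho *ᵥ star W = ∑ κ, (W ⬝ᵥ phi κ) * star (W ⬝ᵥ phi κ) := by
  rw [rho, sum_mulVec, dotProduct_sum]
  refine Finset.sum_congr rfl fun κ _ => ?_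
  rw [vecMulVec_mulVec, op_smul_eq_smul, dotProduct_smul, smul_eq_mul, mul_comm,
    star_dotProduct_star]

theorem form_zero {v : Fin 3 → ℂ} (h : Ker v) : pw5 v ⬝ᵥ rho *ᵥ star (pw5 v) = 0 := by
  obtain ⟨u, hu, h⟩ := h
  rw [form]
  refine Finset.sum_eq_zero fun κ _ => mul_eq_zero_of_left ?_ _
  rw [pair, ← exists_mulVec_eq_zero_iff]
  refine ⟨fun i => u (finSumFinEquiv i), fun h0 => hu ?_, funext fun j => ?_⟩
  · funext i
    simpa using congrFun h0 (finSumFinEquiv.symm i)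
  · have := h (Sum.elim κ.1 κ.2 j)
    rw [dotProduct, ← (finSumFinEquiv (m := 2) (n := 3)).sum_comp] at this
    simpa only [mulVec, dotProduct, of_apply, Pi.zero_apply] using this

theorem form_ne : pw5 ![-4, -3, -1] ⬝ᵥ rho *ᵥ star (pw5 ![-4, -3, -1]) ≠ 0 := by
  have nn : ∀ {I : Type} [Fintype I] (f : I → ℂ), ∑ i, f i * star (f i) = 0 → ∀ i, f i = 0 := by
    intro I _ f h i
    simpa using (Finset.sum_eq_zero_iff_of_nonneg fun _ _ => mul_star_self_nonneg _).1 h i
      (Finset.mem_univ _)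
  rw [form]
  intro h
  have := nn _ h (![0, 1], ![2, 3, 4])
  rw [pair] at this
  have e : (Matrix.of fun j i : Fin 2 ⊕ Fin 3 => (![-4, -3, -1] ᵥ* Lc
      (Sum.elim ![0, 1] ![2, 3, 4] j)) (finSumFinEquiv i)) =
      diagonal (Sum.elim ![7, 7] ![21, 21, 28]) := by
    have : ∀ j i : Fin 2 ⊕ Fin 3, -4 * Lz (Sum.elim ![0, 1] ![2, 3, 4] j) 0 (finSumFinEquiv i) +
        -3 * Lz (Sum.elim ![0, 1] ![2, 3, 4] j) 1 (finSumFinEquiv i) +
        -1 * Lz (Sum.elim ![0, 1] ![2, 3, 4] j) 2 (finSumFinEquiv i) =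
        if j = i then Sum.elim ![7, 7] ![21, 21, 28] j else 0 := by decide +kernel
    ext j i
    have := congrArg (Int.cast (R := ℂ)) (this j i)
    simp only [of_apply, vecMul, dotProduct, Fin.sum_univ_three, cons_val, Lc, diagonal_apply]
    push_cast at this
    rw [this]
    congr 1
    rcases j with j | j <;> fin_cases j <;> simp
  rw [e, det_diagonal] at this
  simp [Fin.prod_univ_succ] at this

theorem purify {a b : ℕ} {ρ : Matrix (Fin a × Fin b) (Fin a × Fin b) ℂ} (h : ρ.PosSemidef) :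
    ∃ (e : ℕ) (ψ : Fin a × Fin b × Fin e → ℂ), Purifies ψ ρ := by
  obtain ⟨B, rfl⟩ := CStarAlgebra.nonneg_iff_eq_star_mul_self.1 h.nonneg
  refine ⟨a * b, fun p => star (B (finProdFinEquiv.symm p.2.2) (p.1, p.2.1)), fun p q => ?_⟩
  simp only [star_star]
  exact (finProdFinEquiv.symm.sum_comp fun x => star (B x p) * B x q).symm

theorem main : ∃ (a b : ℕ) (ρ : Matrix (Fin a × Fin b) (Fin a × Fin b) ℂ), IsState ρ ∧
    ¬Separable ρ ∧ Sq ρ := by
  have hp : rho.PosSemidef := posSemidef_sum _ fun κ _ => posSemidef_vecMulVec_self_star _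
  have h0 : rho.trace ≠ 0 := fun h => form_ne (by
    rw [hp.trace_eq_zero_iff.1 h, zero_mulVec, dotProduct_zero])
  obtain ⟨h1, h2⟩ := Complex.nonneg_iff.1 hp.trace_nonneg
  have e : rho.trace = (rho.trace.re : ℂ) := Complex.ext rfl (by simp [← h2])
  refine ⟨_, _, ((rho.trace.re⁻¹ : ℝ) : ℂ) • rho, ⟨hp.smul (by exact_mod_cast inv_nonneg.2 h1), ?_⟩,
    fun h => form_ne ?_, sq_rho.smul (inv_nonneg.2 h1)⟩
  · rw [trace_smul, Complex.ofReal_inv, ← e, smul_eq_mul, inv_mul_cancel₀ h0]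
  · have := sep_vanish h (fun v hv => by rw [smul_mulVec, dotProduct_smul, form_zero hv, smul_zero])
      (-4) (-3) (-1)
    rw [smul_mulVec, dotProduct_smul, smul_eq_zero, Complex.ofReal_inv, ← e] at this
    exact this.resolve_left (inv_ne_zero h0)

end Vale.Agent.P372
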